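import Vale.Agent.H30.NS.Sol

/-!
The concrete lookup function and force for the machine-and-input pair coded by a natural number.
-/

namespace Vale.Agent.H30

/-- Halting weight of the pair coded by `N`: positive exactly when the machine reaches a halting
state, and at most `2 ^ (-N)`. -/
noncomputable def etaW (N : ℕ) : ℝ :=
  (1 / 2 : ℝ) ^ N * ∑' T : ℕ, if reach N T then (1 / 2 : ℝ) ^ (T + 1) else 0

/-- The lookup function: a smooth `1`-periodic function whose `N`-th bump has height
proportional to `etaW N`. -/
noncomputable def gfun : ℝ → ℝ := bumpPer (Wfun 0 1) etaW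

/-- The centre of the `N`-th bump. -/
def cq (N : ℕ) : ℚ := 1 / ((N : ℚ) + 3) + 1 / (2 * ((N : ℚ) + 2) * ((N : ℚ) + 3))

/-- The force for the pair coded by `N`. -/
noncomputable def fN (ν : ℝ) (N : ℕ) : ℝ → R3 → R3 := fG ν ((cq N : ℚ) : ℝ) gfun

end Vale.Agent.H30
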