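import Vale.Agent.H30.NS.Defs

/-!
Shared auxiliary definitions for the P113 development (not part of the final statement).
-/

namespace Vale.Agent.H30

/-- Type of machine descriptions used by `tmStep`. -/
abbrev MachineT : Type := ℕ × List ℕ × List ((ℕ × ℕ) × ℕ × ℕ × Option Bool)

/-- The rational number `(a - b) / (d + 1)` read from a triple of naturals. -/
def ratOf (q : ℕ × ℕ × ℕ) : ℚ := ((q.1 : ℚ) - (q.2.1 : ℚ)) / ((q.2.2 : ℚ) + 1)

theorem qv_eq_ratOf (q : ℕ × ℕ × ℕ) : qv q = ((ratOf q : ℚ) : ℝ) := by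
  simp [qv, ratOf]

/-- A rational-valued function that is computable through triples of naturals. -/
def CRat {α : Type} [Primcodable α] (r : α → ℚ) : Prop :=
  ∃ R : α → ℕ × ℕ × ℕ, Computable R ∧ ∀ x, ratOf (R x) = r x

/-- A real-valued function with computable rational approximations: `A x k` is within
`1 / (k + 1)` of `F x`. -/
def CReal {α : Type} [Primcodable α] (F : α → ℝ) : Prop :=
  ∃ A : α → ℕ → ℕ × ℕ × ℕ, Computable₂ A ∧ ∀ x k, |F x - qv (A x k)| ≤ 1 / ((k : ℝ) + 1)

/-- `reach n T`: the machine-and-input pair coded by `n` is in a halting state after exactly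
`T` steps (false when `n` codes no pair). -/
def reach (n T : ℕ) : Bool :=
  match (Encodable.decode n : Option (MachineT × List ℕ)) with
  | none => false
  | some Mw => decide (((tmStep Mw.1)^[T] (Mw.1.1, [], Mw.2)).1 ∈ Mw.1.2.1)

theorem reach_encode (M : MachineT) (w : List ℕ) (T : ℕ) :
    reach (Encodable.encode (M, w)) T = decide (((tmStep M)^[T] (M.1, [], w)).1 ∈ M.2.1) := by
  simp [reach]

/-- The sum of rescaled copies of a bump `B` (supported in `[0, 1]`), the `N`-th copy living on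
`[1 / (N + 3), 1 / (N + 2)]` with weight `η N`. -/
noncomputable def bumpSum (B : ℝ → ℝ) (η : ℕ → ℝ) (x : ℝ) : ℝ :=
  ∑' N : ℕ, η N * B ((x - 1 / ((N : ℝ) + 3)) * (((N : ℝ) + 2) * ((N : ℝ) + 3)))

/-- The `1`-periodic version of `bumpSum`. -/
noncomputable def bumpPer (B : ℝ → ℝ) (η : ℕ → ℝ) (x : ℝ) : ℝ := bumpSum B η (Int.fract x)

end Vale.Agent.H30
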