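import Mathlib

/-!
Definitions for forced Navier-Stokes flows on the flat torus, written for periodic
functions on R^3, and for one-tape Turing machines given by finite rule tables.
-/

namespace Vale.Agent.H30

/-- Euclidean three-space as coordinate triples; functions on the torus are the
functions on `R3` that are invariant under integer translations. -/
abbrev R3 : Type := Fin 3 → ℝ

/-- The rational number `(a - b) / (d + 1)` given by a triple of naturals `(a, b, d)`. -/
noncomputable def qv (q : ℕ × ℕ × ℕ) : ℝ := ((q.1 : ℝ) - (q.2.1 : ℝ)) / ((q.2.2 : ℝ) + 1)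

/-- One step of a deterministic one-tape Turing machine.
A machine is `(start state, list of halting states, rule table)`; states and tape symbols are
natural numbers and `0` is the blank. A configuration is `(state, cells to the left of the head
with the nearest first, cells from the head rightwards)`; cells beyond the lists are blank.
A rule `((q, s), (q', s', d))` applies in state `q` reading `s`: write `s'`, move the head
(`some true` right, `some false` left, `none` stay) and enter `q'`. The first matching rule is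
used; with no matching rule the configuration does not change. -/
def tmStep (M : ℕ × List ℕ × List ((ℕ × ℕ) × ℕ × ℕ × Option Bool)) (c : ℕ × List ℕ × List ℕ) :
    ℕ × List ℕ × List ℕ :=
  match M.2.2.lookup (c.1, c.2.2.headI) with
  | none => c
  | some (q, s, some true) => (q, s :: c.2.1, c.2.2.tail)
  | some (q, s, some false) => (q, c.2.1.tail, c.2.1.headI :: s :: c.2.2.tail)
  | some (q, s, none) => (q, c.2.1, s :: c.2.2.tail)

/-- Invariance under integer translations: the function descends to the torus. -/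
def Per3 {α : Type} (φ : R3 → α) : Prop :=
  ∀ (x : R3) (k : Fin 3 → ℤ), φ (x + fun i => (k i : ℝ)) = φ x

/-- The partial derivative `∂_j φ`. -/
noncomputable def pd (j : Fin 3) (φ : R3 → ℝ) (x : R3) : ℝ := fderiv ℝ φ x (Pi.single j 1)

/-- `(u, p)` is a classical solution on `[0, T]` of the Navier-Stokes system on the torus with
viscosity `ν` and force `f`, starting from rest: `u`, `∂_t u`, the spatial derivatives of `u` up
to order two, `p` and `∇p` exist and are continuous on `[0, T] × R3`, all are periodic, `p` has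
spatial mean zero, and the equations hold pointwise. -/
def IsClassical (ν : ℝ) (f : ℝ → R3 → R3) (T : ℝ) (u : ℝ → R3 → R3) (p : ℝ → R3 → ℝ) : Prop :=
  (∀ t ∈ Set.Icc (0 : ℝ) T, Per3 (u t) ∧ Per3 (p t)) ∧
  ContinuousOn (fun z : ℝ × R3 => u z.1 z.2) (Set.Icc (0 : ℝ) T ×ˢ Set.univ) ∧
  (∀ t ∈ Set.Icc (0 : ℝ) T, ∀ x : R3,
    DifferentiableWithinAt ℝ (fun s => u s x) (Set.Icc (0 : ℝ) T) t) ∧
  ContinuousOn (fun z : ℝ × R3 => derivWithin (fun s => u s z.2) (Set.Icc (0 : ℝ) T) z.1)
    (Set.Icc (0 : ℝ) T ×ˢ Set.univ) ∧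
  (∀ t ∈ Set.Icc (0 : ℝ) T, ContDiff ℝ 2 (u t)) ∧
  (∀ i j : Fin 3,
    ContinuousOn (fun z : ℝ × R3 => pd j (fun y => u z.1 y i) z.2)
      (Set.Icc (0 : ℝ) T ×ˢ Set.univ) ∧
    ∀ k : Fin 3, ContinuousOn (fun z : ℝ × R3 => pd k (pd j (fun y => u z.1 y i)) z.2)
      (Set.Icc (0 : ℝ) T ×ˢ Set.univ)) ∧
  ContinuousOn (fun z : ℝ × R3 => p z.1 z.2) (Set.Icc (0 : ℝ) T ×ˢ Set.univ) ∧
  (∀ t ∈ Set.Icc (0 : ℝ) T, Differentiable ℝ (p t)) ∧
  (∀ i : Fin 3, ContinuousOn (fun z : ℝ × R3 => pd i (p z.1) z.2)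
    (Set.Icc (0 : ℝ) T ×ˢ Set.univ)) ∧
  (∀ t ∈ Set.Icc (0 : ℝ) T, ∫ x in Set.Icc (0 : R3) 1, p t x = 0) ∧
  (∀ x : R3, u 0 x = 0) ∧
  ∀ t ∈ Set.Icc (0 : ℝ) T, ∀ x : R3,
    (∑ j : Fin 3, pd j (fun y => u t y j) x = 0) ∧
    ∀ i : Fin 3,
      derivWithin (fun s => u s x i) (Set.Icc (0 : ℝ) T) t
          + ∑ j : Fin 3, u t x j * pd j (fun y => u t y i) x
        = - pd i (p t) x + ν * ∑ j : Fin 3, pd j (pd j (fun y => u t y i)) x + f t x i

/-- The mixed derivative `∂_t^a ∂_{x_0}^{b.1} ∂_{x_1}^{b.2.1} ∂_{x_2}^{b.2.2} g` of a function of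
time and space. -/
noncomputable def mixedD (a : ℕ) (b : ℕ × ℕ × ℕ) (g : ℝ → R3 → ℝ) : ℝ → R3 → ℝ :=
  (fun h : ℝ → R3 → ℝ => fun t x => deriv (fun s => h s x) t)^[a]
    ((fun h : ℝ → R3 → ℝ => fun t => pd 0 (h t))^[b.1]
      ((fun h : ℝ → R3 → ℝ => fun t => pd 1 (h t))^[b.2.1]
        ((fun h : ℝ → R3 → ℝ => fun t => pd 2 (h t))^[b.2.2] g)))

/-- The code `c` is a program for the force `f`: given orders `a`, `b`, a component `i`, a
rational point `(t, x)` with `t ≥ 0` and an accuracy index `k`, it halts and returns a rational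
number within `1 / (k + 1)` of the mixed derivative of the `i`-th component of `f` at `(t, x)`.
Rational numbers are passed as triples of naturals, read by `qv`. -/
def IsProgramFor (c : Nat.Partrec.Code) (f : ℝ → R3 → R3) : Prop :=
  ∀ (a : ℕ) (b : ℕ × ℕ × ℕ) (i : Fin 3) (t : ℕ × ℕ × ℕ)
    (x : (ℕ × ℕ × ℕ) × (ℕ × ℕ × ℕ) × (ℕ × ℕ × ℕ)) (k : ℕ),
    0 ≤ qv t →
    ∃ r : ℕ × ℕ × ℕ, Encodable.encode r ∈ c.eval (Encodable.encode (a, b, i, t, x, k)) ∧
      |mixedD a b (fun s y => f s y i) (qv t) ![qv x.1, qv x.2.1, qv x.2.2] - qv r|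
        ≤ 1 / ((k : ℝ) + 1)

/-- The forced system with viscosity `ν` and force `f` has a global smooth solution, which is
unique among classical solutions on every `[0, T]`; the fluid particle starting at the torus point
`a` has a trajectory, and every such trajectory lies in the set `O` at some time `t ≥ 0` if and
only if `h` holds. Trajectories are written as lifts `X : ℝ → R3` of curves on the torus. -/
def Detects (ν : ℝ) (f : ℝ → R3 → R3) (a : Fin 3 → UnitAddCircle)
    (O : Set (Fin 3 → UnitAddCircle)) (h : Prop) : Prop :=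
  ∃ (u : ℝ → R3 → R3) (p : ℝ → R3 → ℝ),
    (∀ n : ℕ, ContDiff ℝ n (fun z : ℝ × R3 => u z.1 z.2)) ∧
    (∀ n : ℕ, ContDiff ℝ n (fun z : ℝ × R3 => p z.1 z.2)) ∧
    (∀ T : ℝ, 0 < T → IsClassical ν f T u p ∧
      ∀ v q, IsClassical ν f T v q →
        ∀ t ∈ Set.Icc (0 : ℝ) T, ∀ x : R3, v t x = u t x ∧ q t x = p t x) ∧
    (∃ X : ℝ → R3, (fun i => ((X 0 i : ℝ) : UnitAddCircle)) = a ∧
      ∀ t : ℝ, 0 ≤ t → HasDerivWithinAt X (u t (X t)) (Set.Ici 0) t) ∧
    ∀ X : ℝ → R3, (fun i => ((X 0 i : ℝ) : UnitAddCircle)) = a →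
      (∀ t : ℝ, 0 ≤ t → HasDerivWithinAt X (u t (X t)) (Set.Ici 0) t) →
      ((∃ t : ℝ, 0 ≤ t ∧ (fun i => ((X t i : ℝ) : UnitAddCircle)) ∈ O) ↔ h)

end Vale.Agent.H30
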