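import Vale.Agent.H30.NS.Build
import Vale.Agent.H30.Fz.H77Unique
import Vale.Agent.H30.Fz.H1Eta
import Vale.Agent.H30.Fz.H8GFactFinal
import Vale.Agent.H30.Fz.H43Force
import Vale.Agent.H30.Fz.H45WDer
import Vale.Agent.H30.Fz.H97GDerFinal

/-!
Final assembly for P113: halting detection by particle trajectories of forced Navier-Stokes
flows from rest.
-/

namespace Vale.Agent.H30
open Encodable
open Vale.Agent.H77 (classical_unique)
open Vale.Agent.H1 (etaW_nonneg etaW_le etaW_pos_iff)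
open Vale.Agent.H8 (gfun_smooth gfun_periodic gfun_cq)

/-- Mixed derivatives of the forces at rational points are uniformly computable reals. -/
theorem force_creal (ν : ℝ)
    (hν : ∃ φ : ℕ → ℕ × ℕ × ℕ, Computable φ ∧ ∀ k : ℕ, |ν - qv (φ k)| ≤ 1 / ((k : ℝ) + 1)) :
    CReal (fun p : ℕ × ℕ × (ℕ × ℕ × ℕ) × Fin 3 × (ℕ × ℕ × ℕ)
        × ((ℕ × ℕ × ℕ) × (ℕ × ℕ × ℕ) × (ℕ × ℕ × ℕ)) =>
      mixedD p.2.1 p.2.2.1 (fun s y => fN ν p.1 s y p.2.2.2.1) (qv p.2.2.2.2.1)
        ![qv p.2.2.2.2.2.1, qv p.2.2.2.2.2.2.1, qv p.2.2.2.2.2.2.2]) :=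
  Vale.Agent.H43.force_creal_of Vale.Agent.H45.Wfun_deriv_creal Vale.Agent.H97.gfun_deriv_creal
    Vale.Agent.H8.gfun_smooth ν hν

/-- A computable function is computed by some code. -/
theorem code_of_computable {α β : Type} [Primcodable α] [Primcodable β] (F : α → β)
    (hF : Computable F) :
    ∃ c : Nat.Partrec.Code, ∀ x, encode (F x) ∈ c.eval (encode x) := by
  obtain ⟨c, hc⟩ := Nat.Partrec.Code.exists_code.1 hF
  refine ⟨c, fun x => ?_⟩
  rw [hc]
  simp

theorem halting_iff (M : MachineT) (w : List ℕ) :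
    (0 < gfun ((cq (encode (M, w)) : ℚ) : ℝ)) ↔
      ∃ n : ℕ, ((tmStep M)^[n] (M.1, [], w)).1 ∈ M.2.1 := by
  rw [gfun_cq]
  have he : 0 < Real.exp (-1) * Real.exp (-1) := by positivity
  rw [mul_pos_iff_of_pos_right he, etaW_pos_iff]
  simp only [reach_encode, decide_eq_true_eq]

theorem main_theorem :
    ∀ ν : ℝ, 0 < ν →
      (∃ φ : ℕ → ℕ × ℕ × ℕ, Computable φ ∧ ∀ k : ℕ, |ν - qv (φ k)| ≤ 1 / ((k : ℝ) + 1)) →
    ∃ (a : Fin 3 → UnitAddCircle) (O : Set (Fin 3 → UnitAddCircle))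
      (comp : (ℕ × List ℕ × List ((ℕ × ℕ) × ℕ × ℕ × Option Bool)) → List ℕ → Nat.Partrec.Code)
      (F : (ℕ × List ℕ × List ((ℕ × ℕ) × ℕ × ℕ × Option Bool)) → List ℕ → ℝ → R3 → R3)
      (T₀ P : ℝ),
      IsOpen O ∧ Computable₂ comp ∧ 0 < P ∧
      (∀ M w w' t x, T₀ ≤ t → F M w (t + P) x = F M w t x ∧ F M w' t x = F M w t x) ∧
      ∀ M w, (∀ n : ℕ, ContDiff ℝ n (fun z : ℝ × R3 => F M w z.1 z.2)) ∧
        (∀ t : ℝ, Per3 (F M w t)) ∧ IsProgramFor (comp M w) (F M w) ∧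
        Detects ν (F M w) a O (∃ n : ℕ, ((tmStep M)^[n] (M.1, [], w)).1 ∈ M.2.1) := by
  intro ν hν hcomp
  obtain ⟨A, hA, hAe⟩ := force_creal ν hcomp
  -- the uniform program
  let G : ℕ × (ℕ × (ℕ × ℕ × ℕ) × Fin 3 × (ℕ × ℕ × ℕ)
      × ((ℕ × ℕ × ℕ) × (ℕ × ℕ × ℕ) × (ℕ × ℕ × ℕ)) × ℕ) → ℕ × ℕ × ℕ :=
    fun p => A (p.1, p.2.1, p.2.2.1, p.2.2.2.1, p.2.2.2.2.1, p.2.2.2.2.2.1) p.2.2.2.2.2.2
  have hG : Computable G := by
    have h1 : Computable (fun p : ℕ × (ℕ × (ℕ × ℕ × ℕ) × Fin 3 × (ℕ × ℕ × ℕ)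
        × ((ℕ × ℕ × ℕ) × (ℕ × ℕ × ℕ) × (ℕ × ℕ × ℕ)) × ℕ) =>
        (p.1, p.2.1, p.2.2.1, p.2.2.2.1, p.2.2.2.2.1, p.2.2.2.2.2.1)) := by
      refine Computable.pair Computable.fst (Computable.pair ?_ (Computable.pair ?_
        (Computable.pair ?_ (Computable.pair ?_ ?_))))
      · exact Computable.fst.comp Computable.snd
      · exact Computable.fst.comp (Computable.snd.comp Computable.snd)
      · exact Computable.fst.comp (Computable.snd.comp (Computable.snd.comp Computable.snd))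
      · exact Computable.fst.comp (Computable.snd.comp (Computable.snd.comp
          (Computable.snd.comp Computable.snd)))
      · exact Computable.fst.comp (Computable.snd.comp (Computable.snd.comp
          (Computable.snd.comp (Computable.snd.comp Computable.snd))))
    have h2 : Computable (fun p : ℕ × (ℕ × (ℕ × ℕ × ℕ) × Fin 3 × (ℕ × ℕ × ℕ)
        × ((ℕ × ℕ × ℕ) × (ℕ × ℕ × ℕ) × (ℕ × ℕ × ℕ)) × ℕ) => p.2.2.2.2.2.2) :=
      Computable.snd.comp (Computable.snd.comp (Computable.snd.comp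
          (Computable.snd.comp (Computable.snd.comp Computable.snd))))
    exact hA.comp h1 h2
  obtain ⟨c₀, hc₀⟩ := code_of_computable G hG
  refine ⟨0, Oset, fun M w => Nat.Partrec.Code.curry c₀ (encode (M, w)),
    fun M w => fN ν (encode (M, w)), 2, 1, Oset_open, ?_, one_pos, ?_, ?_⟩
  · have : Computable (fun p : (ℕ × List ℕ × List ((ℕ × ℕ) × ℕ × ℕ × Option Bool)) × List ℕ =>
        Nat.Partrec.Code.curry c₀ (encode p)) :=
      (Nat.Partrec.Code.primrec₂_curry.to_comp).comp (Computable.const c₀) Computable.encode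
    exact this
  · intro M w w' t x ht
    simp only [fN]
    rw [fG_eq_zero ν _ (by linarith) x, fG_eq_zero ν _ ht x, fG_eq_zero ν _ ht x]
    exact ⟨rfl, rfl⟩
  · intro M w
    refine ⟨fG_smooth ν _ gfun_smooth, fG_periodic ν _ gfun_periodic, ?_, ?_⟩
    · intro a b i t x k _
      refine ⟨G (encode (M, w), a, b, i, t, x, k), ?_, ?_⟩
      · rw [Nat.Partrec.Code.eval_curry]
        have := hc₀ (encode (M, w), a, b, i, t, x, k)
        simpa using this
      · exact hAe (encode (M, w), a, b, i, t, x) k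
    · have hg0 : 0 ≤ gfun ((cq (encode (M, w)) : ℚ) : ℝ) := by
        rw [gfun_cq]
        exact mul_nonneg (etaW_nonneg _) (by positivity)
      have hg1 : gfun ((cq (encode (M, w)) : ℚ) : ℝ) ≤ 1 := by
        rw [gfun_cq]
        have h1 : etaW (encode (M, w)) ≤ 1 :=
          (etaW_le _).trans (pow_le_one₀ (by norm_num) (by norm_num))
        have h2 : Real.exp (-1) * Real.exp (-1) ≤ 1 := by
          have := exp_neg_one_lt_half
          have h0 : 0 < Real.exp (-1) := Real.exp_pos _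
          nlinarith
        have h3 : 0 ≤ Real.exp (-1) * Real.exp (-1) := by positivity
        calc etaW (encode (M, w)) * (Real.exp (-1) * Real.exp (-1))
            ≤ 1 * 1 := mul_le_mul h1 h2 h3 zero_le_one
          _ = 1 := one_mul 1
      have hd := detects_generic ν ((cq (encode (M, w)) : ℚ) : ℝ) gfun_smooth gfun_periodic
        hg0 hg1 (fun T hT v q hvq =>
          classical_unique hν hT (uG_isClassical ν _ gfun_smooth gfun_periodic hT) hvq)
      have hiff := propext (halting_iff M w)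
      rw [← hiff]
      exact hd

end Vale.Agent.H30
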