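import Vale.Agent.H30.NS.Core

/-!
Special functions: the flat function `Efun s = exp (1 - 1/s)` (`s > 0`), the window
`Wfun a b s = Efun (a + s) * Efun (b - s)`, and closed formulas for all their derivatives.
-/

namespace Vale.Agent.H30

open Polynomial

/-- Polynomials with `D^j expNegInvGlue x = (glueP j)(1/x) * expNegInvGlue x`. -/
noncomputable def glueP : ℕ → ℝ[X]
  | 0 => 1
  | (j + 1) => X ^ 2 * (glueP j - derivative (glueP j))

theorem iteratedDeriv_glue (j : ℕ) :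
    iteratedDeriv j expNegInvGlue = fun x => (glueP j).eval x⁻¹ * expNegInvGlue x := by
  induction j with
  | zero => ext x; simp [glueP]
  | succ j ih =>
    rw [iteratedDeriv_succ, ih]
    ext x
    exact (expNegInvGlue.hasDerivAt_polynomial_eval_inv_mul (glueP j) x).deriv

theorem glueP_rec (j : ℕ) :
    glueP (j + 2) = (X ^ 2 - 2 * ((j : ℝ[X]) + 1) * X) * glueP (j + 1)
      - ((j : ℝ[X]) + 1) * (j : ℝ[X]) * X ^ 2 * glueP j := by
  induction j with
  | zero =>
    simp [glueP]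
    ring
  | succ j ih =>
    have E1 : glueP (j + 3) = X ^ 2 * (glueP (j + 2) - derivative (glueP (j + 2))) := rfl
    have E2 : glueP (j + 2) = X ^ 2 * (glueP (j + 1) - derivative (glueP (j + 1))) := rfl
    have E3 : glueP (j + 1) = X ^ 2 * (glueP j - derivative (glueP j)) := rfl
    have E5 := congrArg derivative ih
    have h2 : (C (2 : ℝ) : ℝ[X]) = 2 := map_ofNat C 2
    simp only [derivative_sub, derivative_mul, derivative_X_pow, derivative_X, derivative_add,
      derivative_natCast, derivative_one, derivative_ofNat,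
      zero_mul, zero_add, add_zero, mul_zero, mul_one, Nat.cast_ofNat, h2,
      show (2 - 1 : ℕ) = 1 from rfl, pow_one] at E5
    push_cast
    linear_combination E1 - X ^ 2 * E5 - (X ^ 2 - 2 * ((j : ℝ[X]) + 1) * X) * E2
      + ((j : ℝ[X]) + 1) * (j : ℝ[X]) * X ^ 2 * E3 + (X ^ 2 + 2 * X) * ih

/-- The pair `((glueP n)(y), (glueP (n+1))(y))` for rational `y`, by the three-term recurrence. -/
def dqPair (y : ℚ) (n : ℕ) : ℚ × ℚ :=
  Nat.rec (motive := fun _ => ℚ × ℚ) (1, y ^ 2)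
    (fun k st => (st.2, (y ^ 2 - 2 * ((k : ℚ) + 1) * y) * st.2
      - ((k : ℚ) + 1) * (k : ℚ) * y ^ 2 * st.1)) n

/-- `dq j y = (glueP j)(y)` for rational `y`. -/
def dq (j : ℕ) (y : ℚ) : ℚ := (dqPair y j).1

theorem dqPair_succ (y : ℚ) (n : ℕ) :
    dqPair y (n + 1) = ((dqPair y n).2, (y ^ 2 - 2 * ((n : ℚ) + 1) * y) * (dqPair y n).2
      - ((n : ℚ) + 1) * (n : ℚ) * y ^ 2 * (dqPair y n).1) := rfl

theorem glueP_eval_pair (y : ℚ) (j : ℕ) :
    (glueP j).eval (y : ℝ) = ((dqPair y j).1 : ℝ) ∧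
      (glueP (j + 1)).eval (y : ℝ) = ((dqPair y j).2 : ℝ) := by
  induction j with
  | zero => simp [glueP, dqPair]
  | succ j ih =>
    refine ⟨by rw [dqPair_succ]; exact ih.2, ?_⟩
    rw [glueP_rec, dqPair_succ]
    simp only [eval_sub, eval_mul, eval_pow, eval_X, eval_add, eval_natCast, eval_one,
      eval_ofNat, ih.1, ih.2]
    push_cast
    ring

theorem glueP_eval_rat (y : ℚ) (j : ℕ) : (glueP j).eval (y : ℝ) = ((dq j y : ℚ) : ℝ) :=
  (glueP_eval_pair y j).1

/-- The flat function: `exp (1 - 1/s)` for `s > 0` and `0` for `s ≤ 0`. -/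
noncomputable def Efun (s : ℝ) : ℝ := Real.exp 1 * expNegInvGlue s

theorem Efun_contDiff (n : ℕ) : ContDiff ℝ n Efun :=
  contDiff_const.mul expNegInvGlue.contDiff

theorem Efun_of_nonpos {s : ℝ} (hs : s ≤ 0) : Efun s = 0 := by
  simp [Efun, expNegInvGlue.zero_of_nonpos hs]

theorem Efun_of_pos {s : ℝ} (hs : 0 < s) : Efun s = Real.exp (1 - s⁻¹) := by
  simp [Efun, expNegInvGlue, not_le.2 hs, sub_eq_add_neg, Real.exp_add]

theorem Efun_nonneg (s : ℝ) : 0 ≤ Efun s :=
  mul_nonneg (Real.exp_pos 1).le (expNegInvGlue.nonneg s)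

theorem Efun_pos {s : ℝ} (hs : 0 < s) : 0 < Efun s :=
  mul_pos (Real.exp_pos 1) (expNegInvGlue.pos_of_pos hs)

theorem iteratedDeriv_Efun (j : ℕ) (s : ℝ) :
    iteratedDeriv j Efun s = Real.exp 1 * ((glueP j).eval s⁻¹ * expNegInvGlue s) := by
  have h : Efun = fun s => Real.exp 1 * expNegInvGlue s := rfl
  rw [h, iteratedDeriv_const_mul_field, iteratedDeriv_glue]

theorem iteratedDeriv_Efun_nonpos (j : ℕ) {s : ℝ} (hs : s ≤ 0) : iteratedDeriv j Efun s = 0 := by
  rw [iteratedDeriv_Efun, expNegInvGlue.zero_of_nonpos hs]; simp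

theorem iteratedDeriv_Efun_pos (j : ℕ) {s : ℝ} (hs : 0 < s) :
    iteratedDeriv j Efun s = (glueP j).eval s⁻¹ * Real.exp (1 - s⁻¹) := by
  rw [iteratedDeriv_Efun, ← Efun_of_pos hs, Efun]; ring

/-- The window function, supported in `[-a, b]`. -/
noncomputable def Wfun (a b s : ℝ) : ℝ := Efun (a + s) * Efun (b - s)

theorem Wfun_contDiff (a b : ℝ) (n : ℕ) : ContDiff ℝ n (Wfun a b) :=
  ((Efun_contDiff n).comp (contDiff_const.add contDiff_id)).mul
    ((Efun_contDiff n).comp (contDiff_const.sub contDiff_id))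

theorem Wfun_nonneg (a b s : ℝ) : 0 ≤ Wfun a b s :=
  mul_nonneg (Efun_nonneg _) (Efun_nonneg _)

theorem iteratedDeriv_Wfun (j : ℕ) (a b s : ℝ) :
    iteratedDeriv j (Wfun a b) s = ∑ i ∈ Finset.range (j + 1),
      (j.choose i : ℝ) * iteratedDeriv i Efun (a + s)
        * ((-1) ^ (j - i) * iteratedDeriv (j - i) Efun (b - s)) := by
  have h : Wfun a b = (fun z => Efun (a + z)) * (fun z => Efun (b - z)) := rfl
  have h1 : ContDiffAt ℝ j (fun z => Efun (a + z)) s :=
    ((Efun_contDiff j).comp (contDiff_const.add contDiff_id)).contDiffAt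
  have h2 : ContDiffAt ℝ j (fun z => Efun (b - z)) s :=
    ((Efun_contDiff j).comp (contDiff_const.sub contDiff_id)).contDiffAt
  rw [h, iteratedDeriv_mul h1 h2]
  refine Finset.sum_congr rfl fun i _ => ?_
  rw [iteratedDeriv_comp_const_add, iteratedDeriv_comp_const_sub]
  simp

theorem iteratedDeriv_Wfun_eq_zero (j : ℕ) {a b s : ℝ} (h : s ≤ -a ∨ b ≤ s) :
    iteratedDeriv j (Wfun a b) s = 0 := by
  rw [iteratedDeriv_Wfun]
  refine Finset.sum_eq_zero fun i _ => ?_
  rcases h with h | h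
  · rw [iteratedDeriv_Efun_nonpos i (by linarith)]; simp
  · rw [iteratedDeriv_Efun_nonpos (j - i) (by linarith)]; simp

theorem Wfun_eq_zero {a b s : ℝ} (h : s ≤ -a ∨ b ≤ s) : Wfun a b s = 0 := by
  simpa using iteratedDeriv_Wfun_eq_zero 0 h

theorem deriv_Wfun_eq_zero {a b s : ℝ} (h : s ≤ -a ∨ b ≤ s) : deriv (Wfun a b) s = 0 := by
  simpa [iteratedDeriv_one] using iteratedDeriv_Wfun_eq_zero 1 h

/-- The rational coefficient in the closed formula for the derivatives of the window. -/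
def wq (j : ℕ) (a b s : ℚ) : ℚ :=
  ∑ i ∈ Finset.range (j + 1),
    (j.choose i : ℚ) * dq i (a + s)⁻¹ * ((-1) ^ (j - i) * dq (j - i) (b - s)⁻¹)

theorem iteratedDeriv_Wfun_rat (j : ℕ) (a b s : ℚ) :
    iteratedDeriv j (Wfun a b) (s : ℝ) =
      if -a < s ∧ s < b then
        ((wq j a b s : ℚ) : ℝ) * Real.exp (((2 - (a + s)⁻¹ - (b - s)⁻¹ : ℚ) : ℝ))
      else 0 := by
  split_ifs with h
  · obtain ⟨h1, h2⟩ := h
    have h1' : (0 : ℝ) < (a : ℝ) + (s : ℝ) := by exact_mod_cast (by linarith : (0 : ℚ) < a + s)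
    have h2' : (0 : ℝ) < (b : ℝ) - (s : ℝ) := by exact_mod_cast (by linarith : (0 : ℚ) < b - s)
    rw [iteratedDeriv_Wfun, wq]
    push_cast
    rw [Finset.sum_mul]
    refine Finset.sum_congr rfl fun i _ => ?_
    rw [iteratedDeriv_Efun_pos i h1', iteratedDeriv_Efun_pos (j - i) h2']
    have e1 := glueP_eval_rat (a + s)⁻¹ i
    have e2 := glueP_eval_rat (b - s)⁻¹ (j - i)
    push_cast at e1 e2
    rw [e1, e2]
    have : Real.exp (2 - ((a : ℝ) + s)⁻¹ - ((b : ℝ) - s)⁻¹)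
        = Real.exp (1 - ((a : ℝ) + s)⁻¹) * Real.exp (1 - ((b : ℝ) - s)⁻¹) := by
      rw [← Real.exp_add]; ring_nf
    rw [this]
    ring
  · apply iteratedDeriv_Wfun_eq_zero
    rw [not_and_or, not_lt, not_lt] at h
    rcases h with h | h
    · left; exact_mod_cast h
    · right; exact_mod_cast h

end Vale.Agent.H30
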